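import Vale.Agent.P371W95.Br

/-!
The sharp one-dimensional Lieb-Thirring constants, `1/2 < γ < 3/2`, for the self-adjoint operator
`H_W` of the form `∫ ‖ψ'‖² - ∫ ⟨ψ, W ψ⟩` on `H¹(ℝ; ℂ^m)`.
-/

namespace Vale.Agent.Results.P371.AAOperator

open Vale.Agent.P371V MeasureTheory

/-- For all `1/2 < γ < 3/2` and `m ≥ 1`, with `C = 2 ((γ-1/2)/(γ+1/2))^(γ-1/2) L^cl_γ`:
* `L_γ(m) = C`, `L_γ(m) = L_γ(1)` and `L_γ(1) = L^{(1)}_γ`;
* the two formulas for `L^cl_γ` agree;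
* for every potential `W` the function `tr W^(γ+1/2)` is integrable, the form is densely defined,
  bounded below and closed, its operator `H_W` is self-adjoint, the negative spectrum
  consists of eigenvalues of finite multiplicity that accumulate at most at `0`, and
  `Tr (H_W)_-^γ ≤ C ∫ tr W^(γ+1/2)`, with equality if and only if,
  for a constant unitary matrix `U`, numbers `a_i ≥ 0` and centres `c_i`, almost everywhere
  `W x = U diag ((γ-1/2) (γ+1/2) a_i² / cosh² (a_i (x - c_i))) U^*`. -/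
theorem result (γ : ℝ) (hγ : 1 / 2 < γ) (hγ' : γ < 3 / 2) (m : ℕ) (hm : 1 ≤ m) :
    LTconst γ m = ENNReal.ofReal (2 * ((γ - 1 / 2) / (γ + 1 / 2)) ^ (γ - 1 / 2) * Lcl γ) ∧
    LTconst γ m = LTconst γ 1 ∧ LTconst γ 1 = LTone γ ∧
    Lcl γ = 1 / (2 * Real.pi) * ∫ ξ : ℝ, max (1 - ξ ^ 2) 0 ^ γ ∧
    ∀ W : ℝ → Matrix (Fin m) (Fin m) ℂ, Potential (γ + 1 / 2) W →
      Integrable (fun x => trPow (γ + 1 / 2) (W x)) ∧ IsSchrodinger (act W) ∧
      trH γ (act W) ≤ ENNReal.ofReal (2 * ((γ - 1 / 2) / (γ + 1 / 2)) ^ (γ - 1 / 2) * Lcl γ *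
        ∫ x, trPow (γ + 1 / 2) (W x)) ∧
      (trH γ (act W) = ENNReal.ofReal (2 * ((γ - 1 / 2) / (γ + 1 / 2)) ^ (γ - 1 / 2) * Lcl γ *
          ∫ x, trPow (γ + 1 / 2) (W x)) ↔
        ∃ (U : Matrix (Fin m) (Fin m) ℂ) (a c : Fin m → ℝ), U ∈ Matrix.unitaryGroup (Fin m) ℂ ∧
          (∀ i, 0 ≤ a i) ∧ ∀ᵐ x : ℝ, W x = U * Matrix.diagonal (fun i =>
            (((γ - 1 / 2) * (γ + 1 / 2) * a i ^ 2 / Real.cosh (a i * (x - c i)) ^ 2 : ℝ) : ℂ)) *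
            U.conjTranspose) :=
  main γ hγ hγ' m hm

end Vale.Agent.Results.P371.AAOperator
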