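import Vale.Agent.P371EF.Main

/-!
The sharp one-dimensional Lieb-Thirring inequality for matrix potentials, `1/2 < γ < 3/2`,
with all cases of equality.
-/

namespace Vale.Agent.Results.P371.AEquality

open Vale.Agent.P371 MeasureTheory

/-- For all `1/2 < γ < 3/2` and `m ≥ 1`, with `C = 2 ((γ-1/2)/(γ+1/2))^(γ-1/2) L^cl_γ`:
* `L_γ(m) = C`, `L_γ(m) = L_γ(1)` and `L_γ(1) = L^{(1)}_γ`;
* every potential `W` satisfies `Tr (H_W)_-^γ ≤ C ∫ tr W^(γ+1/2)`, with equality if and only if,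
  for a constant unitary matrix `U`, numbers `a_i ≥ 0` and centres `c_i`, almost everywhere
  `W x = U diag ((γ-1/2) (γ+1/2) a_i² / cosh² (a_i (x - c_i))) U^*`. -/
theorem result (γ : ℝ) (hγ : 1 / 2 < γ) (hγ' : γ < 3 / 2) (m : ℕ) (hm : 1 ≤ m) :
    LT.LTconst γ m = ENNReal.ofReal (2 * ((γ - 1 / 2) / (γ + 1 / 2)) ^ (γ - 1 / 2) * LT.Lcl γ) ∧
    LT.LTconst γ m = LT.LTconst γ 1 ∧ LT.LTconst γ 1 = LT.LTone γ ∧
    ∀ W : ℝ → Matrix (Fin m) (Fin m) ℂ, LT.Potential (γ + 1 / 2) W →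
      LT.rieszMean γ W ≤ ENNReal.ofReal (2 * ((γ - 1 / 2) / (γ + 1 / 2)) ^ (γ - 1 / 2) * LT.Lcl γ *
        LT.intTr (γ + 1 / 2) W) ∧
      (LT.rieszMean γ W = ENNReal.ofReal (2 * ((γ - 1 / 2) / (γ + 1 / 2)) ^ (γ - 1 / 2) *
          LT.Lcl γ * LT.intTr (γ + 1 / 2) W) ↔
        ∃ (U : Matrix (Fin m) (Fin m) ℂ) (a c : Fin m → ℝ), U ∈ Matrix.unitaryGroup (Fin m) ℂ ∧
          (∀ i, 0 ≤ a i) ∧ ∀ᵐ x : ℝ, W x = U * Matrix.diagonal (fun i =>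
            (((γ - 1 / 2) * (γ + 1 / 2) * a i ^ 2 / Real.cosh (a i * (x - c i)) ^ 2 : ℝ) : ℂ)) *
            U.conjTranspose) := by
  have hM : ∀ N m, G.MainHyp γ (G.Cg γ) N m := fun N m => PI.mainHyp hγ hγ' N m
  have hold := fun (m : ℕ) (hm : 1 ≤ m) => G.final_of_main hγ hM m hm
  refine ⟨(hold m hm).1.trans (hold m hm).2.2, (hold m hm).2.1, (hold 1 le_rfl).1,
    fun W hW => ⟨?_, P371EF.main γ hγ hγ' m W hW⟩⟩
  have h := G.rieszMean_le_of_main hγ (G.Cg_pos hγ).le (fun N => hM N m)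
    (LT.isPotential_iff.mpr hW)
  rw [LT.rieszMean_eq, G.Cg_eq hγ] at h
  exact h

end Vale.Agent.Results.P371.AEquality
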